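import Vale.Agent.P052.Config
import Vale.Agent.P052.Cover

/-!
# Borsuk's conjecture fails in dimension 63
-/

namespace Vale.Agent.Results.P052.Main

/-- `Splits Y k`: the set `Y` is a union of `k` sets, each of diameter strictly smaller than the
diameter of `Y`. -/
def Splits {d : ℕ} (Y : Set (EuclideanSpace ℝ (Fin d))) (k : ℕ) : Prop :=
  ∃ P : Fin k → Set (EuclideanSpace ℝ (Fin d)),
    (⋃ i, P i) = Y ∧ ∀ i, Metric.diam (P i) < Metric.diam Y

/-- Borsuk's conjecture in dimension `d`: every bounded set of positive diameter in `ℝ ^ d` is a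
union of `d + 1` sets of strictly smaller diameter. -/
def BorsukHolds (d : ℕ) : Prop :=
  ∀ Y : Set (EuclideanSpace ℝ (Fin d)), Bornology.IsBounded Y → 0 < Metric.diam Y →
    Splits Y (d + 1)

/-- Borsuk's conjecture is false in dimension 63.  More precisely there is a finite set `Y` of
positive diameter in `ℝ ^ 63` that can be split into finitely many parts of smaller diameter, but
every such splitting has at least 65 parts. -/
theorem result :
    ¬ BorsukHolds 63 ∧
    ∃ Y : Set (EuclideanSpace ℝ (Fin 63)), Y.Finite ∧ 0 < Metric.diam Y ∧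
      (∃ k, Splits Y k) ∧ ∀ k, Splits Y k → 65 ≤ k := by
  have main : ∃ Y : Set (EuclideanSpace ℝ (Fin 63)), Y.Finite ∧ 0 < Metric.diam Y ∧
      (∃ k, Splits Y k) ∧ ∀ k, Splits Y k → 65 ≤ k := by
    obtain ⟨q, z, hfar, hle, hzfar, hzle⟩ := Vale.Agent.P052.exists_config
    have hfin : (insert z (Set.range q)).Finite := (Set.finite_range q).insert z
    have hDpos : 0 < Real.sqrt 128 := Real.sqrt_pos.mpr (by norm_num)
    have hbd : Bornology.IsBounded (insert z (Set.range q)) := hfin.isBounded
    -- the diameter
    have hpair : ∀ a ∈ insert z (Set.range q), ∀ b ∈ insert z (Set.range q),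
        dist a b ≤ Real.sqrt 128 := by
      intro a ha b hb
      rcases ha with rfl | ⟨x, rfl⟩
      · rcases hb with rfl | ⟨y, rfl⟩
        · rw [dist_self]; exact hDpos.le
        · exact hzle y
      · rcases hb with rfl | ⟨y, rfl⟩
        · rw [dist_comm]; exact hzle x
        · exact hle x y
    -- a far pair
    have hex : ∃ x : Fin 320, ¬ Vale.Agent.P052.maskZ.testBit (x : ℕ) = true :=
      ⟨⟨319, by norm_num⟩, by decide +kernel⟩
    have hdiam : Metric.diam (insert z (Set.range q)) = Real.sqrt 128 := by
      apply le_antisymm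
      · exact Metric.diam_le_of_forall_dist_le hDpos.le hpair
      · obtain ⟨x, hx⟩ := hex
        rw [← hzfar x hx]
        exact Metric.dist_le_diam_of_mem hbd (Set.mem_insert _ _)
          (Set.mem_insert_of_mem _ ⟨x, rfl⟩)
    refine ⟨insert z (Set.range q), hfin, by rw [hdiam]; exact hDpos, ?_, ?_⟩
    · -- singletons
      obtain ⟨n, f, hf⟩ := hfin.fin_param
      refine ⟨n, fun i => {f i}, ?_, ?_⟩
      · rw [← hf.2]
        ext a
        simp
      · intro i
        rw [Metric.diam_singleton, hdiam]
        exact hDpos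
    · intro k hk
      obtain ⟨P, hP1, hP2⟩ := hk
      apply Vale.Agent.P052.cover_bound q z (Real.sqrt 128)
        (fun x y => Vale.Agent.P052.Adj (x : ℕ) (y : ℕ))
        (fun x => Vale.Agent.P052.maskZ.testBit (x : ℕ) = true) hfar hzfar
        Vale.Agent.P052.clique_five_fin Vale.Agent.P052.clique_four_fin k P
      · have : z ∈ ⋃ i, P i := by rw [hP1]; exact Set.mem_insert _ _
        exact Set.mem_iUnion.mp this
      · intro x
        have : q x ∈ ⋃ i, P i := by
          rw [hP1]
          exact Set.mem_insert_of_mem _ ⟨x, rfl⟩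
        exact Set.mem_iUnion.mp this
      · intro i a ha b hb
        have hsub : P i ⊆ insert z (Set.range q) := by
          rw [← hP1]; exact Set.subset_iUnion P i
        have h1 : dist a b ≤ Metric.diam (P i) :=
          Metric.dist_le_diam_of_mem (hbd.subset hsub) ha hb
        have h2 := hP2 i
        rw [hdiam] at h2
        exact lt_of_le_of_lt h1 h2
  refine ⟨?_, main⟩
  intro hB
  obtain ⟨Y, hfin, hpos, -, hY⟩ := main
  have := hY _ (hB Y hfin.isBounded hpos)
  omega

end Vale.Agent.Results.P052.Main
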